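import Vale.Agent.P269.G1I.All
import Vale.Agent.P269.G1I.H654.Multi
import Vale.Agent.P269.G2I.BSpec1
import Vale.Agent.P269.G2I.H521.Contr
import Vale.Agent.P269.G2I.Model1
import Vale.Agent.P269.G2I.Model2
import Vale.Agent.P269.G2I.Model3

set_option autoImplicit false

/-!
# [M7] Getzler's relation for the full small phase space
-/

namespace Vale.Agent.P269.G2.H521

open Finset.HasAntidiagonal (antidiagonal)
open Vale.Agent.P269.CI
open Vale.Agent.P269.G1 (Frob)

variable {X : CompleteIntersection} {F : ℕ → ℕ → List (Ins X) → ℂ}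

variable (hF : IsGW X F) (he : Even X.dim)

/-- The coordinate fields. -/
noncomputable abbrev be : Module.Basis (Ix X) (RM X) (AM hF he) :=
  QA.bas (consts hF he)

theorem be_apply (i k : Ix X) :
    (be hF he i : AM hF he) k = if k = i then 1 else 0 := QA.bas_apply (consts hF he) i k

theorem sum_be (x : AM hF he) : ∑ k, x k • be hF he k = x := (be hF he).sum_repr x

theorem lin_expand {M : Type*} [AddCommGroup M] [Module (RM X) M] (f : AM hF he →ₗ[RM X] M)
    (x : AM hF he) : f x = ∑ k, x k • f (be hF he k) := by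
  conv_lhs => rw [← sum_be hF he x]
  rw [map_sum]
  exact Finset.sum_congr rfl fun k _ => map_smul f _ _

theorem der_be (i : Ix X) (f : RM X) :
    der hF he (be hF he i) f = pd i f := by
  unfold der
  rw [Finset.sum_eq_single i]
  · rw [be_apply, if_pos rfl, one_mul]
  · intro k _ hk
    rw [be_apply, if_neg hk, zero_mul]
  · intro h
    exact absurd (Finset.mem_univ i) h

theorem der_one' (x : AM hF he) : der hF he x 1 = 0 := by
  unfold der pd
  refine Finset.sum_eq_zero fun i _ => ?_
  rw [Derivation.map_one_eq_zero, mul_zero]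

theorem der_zero' (x : AM hF he) : der hF he x 0 = 0 := by
  unfold der pd
  refine Finset.sum_eq_zero fun i _ => ?_
  rw [map_zero, mul_zero]

theorem nab_be (x : AM hF he) (j : Ix X) : nab hF he x (be hF he j) = 0 := by
  funext k
  change der hF he x ((be hF he j : AM hF he) k) = 0
  rw [be_apply]
  split_ifs
  · exact der_one' hF he x
  · exact der_zero' hF he x

theorem mul_be (i j k : Ix X) :
    (be hF he i * be hF he j : AM hF he) k = QQ F [(i, 0), (j, 0)] k := by
  rw [QA.mul_def, Finset.sum_eq_single i, Finset.sum_eq_single j]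
  · rw [be_apply, be_apply, if_pos rfl, if_pos rfl, one_mul, one_mul]
    rfl
  · intro b _ hb
    rw [be_apply hF he j b, if_neg hb, mul_zero, zero_mul]
  · simp
  · intro b _ hb
    refine Finset.sum_eq_zero fun j' _ => ?_
    rw [be_apply hF he i b, if_neg hb, zero_mul, zero_mul]
  · simp

include hF he in
theorem pd_S (g : ℕ) (i : Ix X) (P : List (Ins X)) : pd i (S F g P) = S F g ((i, 0) :: P) :=
  H598.pd_cor hF he g P i

include hF he in
theorem pd_QQ (i : Ix X) (P : List (Ins X)) (k : Ix X) :
    pd i (QQ F P k) = QQ F ((i, 0) :: P) k := by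
  unfold QQ
  rw [H598.pd_sum]
  refine Finset.sum_congr rfl fun l _ => ?_
  rw [H598.pd_smul, pd_S hF he]
  rfl

theorem c4_be (i j l k : Ix X) :
    ((frob hF he).c4 (be hF he i) (be hF he j) (be hF he l) : AM hF he) k =
      QQ F [(i, 0), (j, 0), (l, 0)] k := by
  have e : (frob hF he).c4 (be hF he i) (be hF he j) (be hF he l) =
      nab hF he (be hF he i) (be hF he j * be hF he l) := by
    change nab hF he (be hF he i) (be hF he j * be hF he l) -
      nab hF he (be hF he i) (be hF he j) * be hF he l -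
      be hF he j * nab hF he (be hF he i) (be hF he l) = _
    rw [nab_be, nab_be, zero_mul, mul_zero, sub_zero, sub_zero]
  rw [e]
  change der hF he (be hF he i) ((be hF he j * be hF he l : AM hF he) k) = _
  rw [mul_be, der_be, pd_QQ hF he]

theorem c5_be (w i j l k : Ix X) :
    ((frob hF he).c5 (be hF he w) (be hF he i) (be hF he j) (be hF he l) : AM hF he) k =
      QQ F [(w, 0), (i, 0), (j, 0), (l, 0)] k := by
  have z1 : ∀ x y : AM hF he, (frob hF he).c4 0 x y = 0 := by
    intro x y
    have := G1.H654.c4_smul1 (frob hF he) 0 0 x y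
    rwa [zero_smul, zero_smul] at this
  have z2 : ∀ x y : AM hF he, (frob hF he).c4 x 0 y = 0 := by
    intro x y
    have := G1.H654.c4_smul2 (frob hF he) 0 x 0 y
    rwa [zero_smul, zero_smul] at this
  have z3 : ∀ x y : AM hF he, (frob hF he).c4 x y 0 = 0 := by
    intro x y
    have := G1.H654.c4_smul3 (frob hF he) 0 x y 0
    rwa [zero_smul, zero_smul] at this
  have e : (frob hF he).c5 (be hF he w) (be hF he i) (be hF he j) (be hF he l) =
      nab hF he (be hF he w) ((frob hF he).c4 (be hF he i) (be hF he j) (be hF he l)) := by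
    change nab hF he (be hF he w) ((frob hF he).c4 (be hF he i) (be hF he j) (be hF he l)) -
      (frob hF he).c4 (nab hF he (be hF he w) (be hF he i)) (be hF he j) (be hF he l) -
      (frob hF he).c4 (be hF he i) (nab hF he (be hF he w) (be hF he j)) (be hF he l) -
      (frob hF he).c4 (be hF he i) (be hF he j) (nab hF he (be hF he w) (be hF he l)) = _
    rw [nab_be, nab_be, nab_be, z1, z2, z3, sub_zero, sub_zero, sub_zero]
  rw [e]
  change der hF he (be hF he w)
    (((frob hF he).c4 (be hF he i) (be hF he j) (be hF he l) : AM hF he) k) = _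
  rw [c4_be, der_be, pd_QQ hF he]

theorem G_be (i : Ix X) : (frob hF he).G (be hF he i) = S F 1 [(i, 0)] := by
  change ∑ k, (be hF he i : AM hF he) k * sr (E0 X) (cor F 1 [(k, 0)]) = _
  rw [Finset.sum_eq_single i]
  · rw [be_apply, if_pos rfl, one_mul]
    rfl
  · intro k _ hk
    rw [be_apply, if_neg hk, zero_mul]
  · simp

theorem H_be (i j : Ix X) :
    (frob hF he).H (be hF he i) (be hF he j) = S F 1 [(i, 0), (j, 0)] := by
  change der hF he (be hF he i) ((frob hF he).G (be hF he j)) -
    (frob hF he).G (nab hF he (be hF he i) (be hF he j)) = _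
  rw [nab_be, map_zero, sub_zero, G_be, der_be, pd_S hF he]

/-! ### Traces -/

theorem mat_be (j c b : Ix X) :
    QA.mat (consts hF he) (be hF he j) c b = QQ F [(j, 0), (b, 0)] c := by
  rw [QA.mat_apply, Finset.sum_eq_single j]
  · rw [be_apply, if_pos rfl, one_mul]
    rfl
  · intro k _ hk
    rw [be_apply, if_neg hk, zero_mul]
  · simp

theorem c4O_be (i j c b : Ix X) :
    (frob hF he).c4O (be hF he i) (be hF he j) c b = QQ F [(i, 0), (j, 0), (b, 0)] c := by
  have e : (frob hF he).c4O (be hF he i) (be hF he j) =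
      nabO hF he (be hF he i) (QA.mat (consts hF he) (be hF he j)) := by
    change nabO hF he (be hF he i) (QA.mat (consts hF he) (be hF he j)) -
      QA.mat (consts hF he) (nab hF he (be hF he i) (be hF he j)) = _
    rw [nab_be, map_zero, sub_zero]
  rw [e]
  change der hF he (be hF he i) (QA.mat (consts hF he) (be hF he j) c b) = _
  rw [mat_be, der_be, pd_QQ hF he]

include hF he in
theorem QQ_perm {P Q : List (Ins X)} (h : P.Perm Q) (k : Ix X) : QQ F P k = QQ F Q k := by
  unfold QQ
  refine Finset.sum_congr rfl fun l _ => ?_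
  rw [S_perm hF he 0 (h.append_right [(l, 0)])]

theorem str_C (k : Ix X) : (frob hF he).str ((frob hF he).C (be hF he k)) =
    ∑ i, QQ F [(k, 0), (i, 0)] i := by
  change Matrix.trace (QA.mat (consts hF he) (be hF he k)) = _
  rw [Matrix.trace]
  exact Finset.sum_congr rfl fun i _ => mat_be hF he k i i

theorem str_c4O (i j : Ix X) :
    (frob hF he).str ((frob hF he).c4O (be hF he j) (be hF he i)) =
    ∑ l, QQ F [(i, 0), (j, 0), (l, 0)] l := by
  change Matrix.trace ((frob hF he).c4O (be hF he j) (be hF he i)) = _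
  rw [Matrix.trace]
  refine Finset.sum_congr rfl fun l _ => ?_
  rw [Matrix.diag_apply, c4O_be]
  exact QQ_perm hF he (List.Perm.swap _ _ _) l

theorem str_c4O_mul (i j k l : Ix X) :
    (frob hF he).str ((frob hF he).c4O (be hF he i) (be hF he j) *
      (frob hF he).c4O (be hF he k) (be hF he l)) =
    ∑ b, ∑ a, QQ F [(k, 0), (l, 0), (b, 0)] a * QQ F [(i, 0), (j, 0), (a, 0)] b := by
  change Matrix.trace ((frob hF he).c4O (be hF he i) (be hF he j) *
      (frob hF he).c4O (be hF he k) (be hF he l)) = _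
  rw [Matrix.trace]
  refine Finset.sum_congr rfl fun b _ => ?_
  rw [Matrix.diag_apply, Matrix.mul_apply]
  refine Finset.sum_congr rfl fun a _ => ?_
  rw [c4O_be, c4O_be, mul_comm]

/-! ### Linear maps -/

noncomputable def Hl (y : AM hF he) : AM hF he →ₗ[RM X] RM X where
  toFun x := (frob hF he).H x y
  map_add' x x' := G1.H654.H_add_left _ x x' y
  map_smul' g x := G1.H654.H_smul_left _ g x y

noncomputable def Hr (x : AM hF he) : AM hF he →ₗ[RM X] RM X where
  toFun y := (frob hF he).H x y
  map_add' y y' := G1.H654.H_add_right _ x y y'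
  map_smul' g y := G1.H654.H_smul_right _ g x y

noncomputable def c4l (y z : AM hF he) : AM hF he →ₗ[RM X] AM hF he where
  toFun x := (frob hF he).c4 x y z
  map_add' x x' := G1.H654.c4_add1 _ x x' y z
  map_smul' g x := G1.H654.c4_smul1 _ g x y z

noncomputable def mulR (z : AM hF he) : AM hF he →ₗ[RM X] AM hF he where
  toFun x := x * z
  map_add' x x' := add_mul x x' z
  map_smul' g x := smul_mul_assoc g x z

noncomputable def c4Or (x : AM hF he) : AM hF he →ₗ[RM X] OB X (nx X) where
  toFun y := (frob hF he).c4O x y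
  map_add' y y' := G1.H654.c4O_add2 _ x y y'
  map_smul' g y := G1.H654.c4O_smul2 _ g x y

variable (v : Fin 4 → Ix X)

theorem Hl_apply (x y : AM hF he) : Hl hF he y x = (frob hF he).H x y := rfl
theorem Hr_apply (x y : AM hF he) : Hr hF he x y = (frob hF he).H x y := rfl
theorem c4l_apply (x y z : AM hF he) : c4l hF he y z x = (frob hF he).c4 x y z := rfl
theorem mulR_apply (x z : AM hF he) : mulR hF he z x = x * z := rfl
theorem c4Or_apply (x y : AM hF he) : c4Or hF he x y = (frob hF he).c4O x y := rfl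

theorem H_mul_be (k a b : Ix X) :
    (frob hF he).H (be hF he k) (be hF he a * be hF he b) =
    ∑ l, QQ F [(a, 0), (b, 0)] l * S F 1 [(k, 0), (l, 0)] := by
  rw [← Hr_apply, lin_expand hF he (Hr hF he _)]
  refine Finset.sum_congr rfl fun l _ => ?_
  rw [mul_be, smul_eq_mul, Hr_apply, H_be]

theorem H_mul_be' (k a b : Ix X) :
    (frob hF he).H (be hF he a * be hF he b) (be hF he k) =
    ∑ l, QQ F [(a, 0), (b, 0)] l * S F 1 [(l, 0), (k, 0)] := by
  rw [← Hl_apply, lin_expand hF he (Hl hF he _)]
  refine Finset.sum_congr rfl fun l _ => ?_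
  rw [mul_be, smul_eq_mul, Hl_apply, H_be]

theorem G_c4_be (a b c : Ix X) :
    (frob hF he).G ((frob hF he).c4 (be hF he a) (be hF he b) (be hF he c)) =
    ∑ l, QQ F [(a, 0), (b, 0), (c, 0)] l * S F 1 [(l, 0)] := by
  rw [lin_expand hF he (frob hF he).G]
  refine Finset.sum_congr rfl fun l _ => ?_
  rw [c4_be, smul_eq_mul, G_be]

theorem G_mul_be (a b : Ix X) :
    (frob hF he).G (be hF he a * be hF he b) =
    ∑ l, QQ F [(a, 0), (b, 0)] l * S F 1 [(l, 0)] := by
  rw [lin_expand hF he (frob hF he).G]
  refine Finset.sum_congr rfl fun l _ => ?_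
  rw [mul_be, smul_eq_mul, G_be]

theorem T1 : (frob hF he).H (be hF he (v 0) * be hF he (v 1)) (be hF he (v 2) * be hF he (v 3)) =
    Gz1 F v := by
  unfold Gz1
  rw [← Hl_apply, lin_expand hF he (Hl hF he _)]
  refine Finset.sum_congr rfl fun k _ => ?_
  rw [mul_be, smul_eq_mul, Hl_apply, H_mul_be]

theorem T2 : (frob hF he).H (be hF he (v 0) * be hF he (v 1) * be hF he (v 2))
    (be hF he (v 3)) = Gz2 F v := by
  unfold Gz2
  rw [← Hl_apply, ← mulR_apply hF he (be hF he (v 0) * be hF he (v 1)), ← LinearMap.comp_apply,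
    lin_expand hF he ((Hl hF he _).comp (mulR hF he _))]
  refine Finset.sum_congr rfl fun k _ => ?_
  rw [mul_be, smul_eq_mul, LinearMap.comp_apply, mulR_apply, Hl_apply, H_mul_be']

theorem T3 : (frob hF he).G ((frob hF he).c4 (be hF he (v 0) * be hF he (v 1))
    (be hF he (v 2)) (be hF he (v 3))) = Gz3 F v := by
  unfold Gz3
  rw [← c4l_apply, ← LinearMap.comp_apply,
    lin_expand hF he ((frob hF he).G.comp (c4l hF he _ _))]
  refine Finset.sum_congr rfl fun k _ => ?_
  rw [mul_be, smul_eq_mul, LinearMap.comp_apply, c4l_apply, G_c4_be]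

theorem T4 : (frob hF he).G ((frob hF he).c4 (be hF he (v 0)) (be hF he (v 1))
    (be hF he (v 2)) * be hF he (v 3)) = Gz4 F v := by
  unfold Gz4
  rw [← mulR_apply, ← LinearMap.comp_apply, lin_expand hF he ((frob hF he).G.comp (mulR hF he _))]
  refine Finset.sum_congr rfl fun k _ => ?_
  rw [c4_be, smul_eq_mul, LinearMap.comp_apply, mulR_apply, G_mul_be]

theorem T5 : (frob hF he).str ((frob hF he).c4O (be hF he (v 3)) ((frob hF he).c4
    (be hF he (v 0)) (be hF he (v 1)) (be hF he (v 2)))) = Gz5 F v := by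
  unfold Gz5
  rw [← c4Or_apply, ← LinearMap.comp_apply,
    lin_expand hF he ((frob hF he).str.comp (c4Or hF he _))]
  refine Finset.sum_congr rfl fun k _ => ?_
  rw [c4_be, smul_eq_mul, LinearMap.comp_apply, c4Or_apply, str_c4O hF he k (v 3)]

theorem T6 : (frob hF he).str ((frob hF he).C ((frob hF he).c5 (be hF he (v 0))
    (be hF he (v 1)) (be hF he (v 2)) (be hF he (v 3)))) = Gz6 F v := by
  unfold Gz6
  have e0 : ∀ x : AM hF he, (frob hF he).str ((frob hF he).C x) =
    ((frob hF he).str.comp (frob hF he).C.toLinearMap) x := fun _ => rfl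
  rw [e0, lin_expand hF he ((frob hF he).str.comp (frob hF he).C.toLinearMap)]
  refine Finset.sum_congr rfl fun k _ => ?_
  rw [c5_be, smul_eq_mul, ← e0, str_C hF he k]

theorem T7 : (frob hF he).str ((frob hF he).c4O (be hF he (v 0)) (be hF he (v 1)) *
    (frob hF he).c4O (be hF he (v 2)) (be hF he (v 3))) = Gz7 F v :=
  str_c4O_mul hF he (v 0) (v 1) (v 2) (v 3)

theorem rat_smul (q : ℚ) (f : RM X) : q • f = (q : ℂ) • f := by
  funext α
  change q • f α = (q : ℂ) • f α
  ext n
  change q • (PowerSeries.coeff n (f α)) = (q : ℂ) * PowerSeries.coeff n (f α)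
  rw [Algebra.smul_def]
  rfl

theorem term_be : (frob hF he).term (fun i => be hF he (v i)) =
    sr (E0 X) (getzlerTermFull F v) := by
  rw [ser_getzlerTerm hF he v]
  unfold Frob.term
  rw [T1, T2, T3, T4, T5, T6, T7, rat_smul, rat_smul, rat_smul]
  have h3 : (3 : RM X) * Gz1 F v = (3:ℂ) • Gz1 F v := by
    rw [smul_RB]; congr 1
  have h4 : (4 : RM X) * Gz2 F v = (4:ℂ) • Gz2 F v := by
    rw [smul_RB]; congr 1
  have h2 : (2 : RM X) * Gz4 F v = (2:ℂ) • Gz4 F v := by
    rw [smul_RB]; congr 1
  rw [h3, h4, h2]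
  push_cast
  rfl

/-- **[M7]** Getzler's relation, by multilinearity from `h1.getzler` -/
theorem frob_getzler (h1 : IsGenusOneFull F) : (frob hF he).Getzler := by
  refine G1.H654.getzler_of_basis (frob hF he) (be hF he) fun w => ?_
  have e : ∀ σ : Equiv.Perm (Fin 4), (frob hF he).term (fun i => be hF he (w (σ i))) =
      srL X (getzlerTermFull F (w ∘ σ)) := fun σ => term_be hF he (w ∘ σ)
  simp only [e]
  rw [← map_sum]
  refine sr_eq_zero fun d L => ?_
  rw [Finset.sum_apply, Finset.sum_apply]
  exact h1.getzler w d L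

end Vale.Agent.P269.G2.H521
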